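import Mathlib

namespace Vale.Agent.Results.P344.LowerBound

open Finset

/-- A gate of a linear circuit. It refers to previously computed values by their position in the
list of values computed so far (a position past the end of the list reads the constant `0`). -/
inductive Gate : Type
  | add (i j : ℕ) : Gate
  | sub (i j : ℕ) : Gate
  | smul (c : ℂ) (i : ℕ) : Gate

/-- The value computed by a gate from the list of values computed so far. -/
noncomputable def Gate.value {V : Type} [AddCommGroup V] [Module ℂ V] (vals : List V) : Gate → V
  | .add i j => vals.getD i 0 + vals.getD j 0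
  | .sub i j => vals.getD i 0 - vals.getD j 0
  | .smul c i => c • vals.getD i 0

/-- Run the gates one after the other, appending each computed value to the list of values. -/
noncomputable def run {V : Type} [AddCommGroup V] [Module ℂ V] : List Gate → List V → List V
  | [], vals => vals
  | g :: gs, vals => run gs (vals ++ [g.value vals])

/-- The circuit `gs` computes the discrete Fourier transform of order `n`: started on the inputs
`x_0, …, x_{n-1}` and the constant `0`, certain designated computed values equal
`∑ k, exp(2πi/n)^(j k) x_k` for every input vector `x`. -/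
def ComputesDFT (n : ℕ) (gs : List Gate) : Prop :=
  ∃ out : Fin n → ℕ, ∀ x : Fin n → ℂ, ∀ j : Fin n,
    (run gs (List.ofFn x ++ [0])).getD (out j) 0
      = ∑ k : Fin n, Complex.exp (2 * Real.pi * Complex.I / n) ^ ((j : ℕ) * (k : ℕ)) * x k

section aux

variable {V W : Type} [AddCommGroup V] [Module ℂ V] [AddCommGroup W] [Module ℂ W]

lemma getD_map (φ : V →ₗ[ℂ] W) (vals : List V) (i : ℕ) :
    (vals.map φ).getD i 0 = φ (vals.getD i 0) := by
  rw [← map_zero φ, List.getD_map]

lemma value_map (φ : V →ₗ[ℂ] W) (vals : List V) (g : Gate) :
    g.value (vals.map φ) = φ (g.value vals) := by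
  cases g <;> simp only [Gate.value, getD_map, map_add, map_sub, map_smul]

lemma run_map (φ : V →ₗ[ℂ] W) (gs : List Gate) : ∀ vals : List V,
    run gs (vals.map φ) = (run gs vals).map φ := by
  induction gs with
  | nil => intro vals; rfl
  | cons g gs ih =>
    intro vals
    simp only [run]
    rw [← ih, value_map, List.map_append]
    rfl

end aux

/-- number of addition/subtraction gates -/
def binCount : List Gate → ℕ
  | [] => 0
  | .add _ _ :: gs => binCount gs + 1
  | .sub _ _ :: gs => binCount gs + 1
  | .smul _ _ :: gs => binCount gs

/-- number of scalar gates -/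
def smulCount : List Gate → ℕ
  | [] => 0
  | .add _ _ :: gs => smulCount gs
  | .sub _ _ :: gs => smulCount gs
  | .smul _ _ :: gs => smulCount gs + 1

lemma count_add (gs : List Gate) : binCount gs + smulCount gs = gs.length := by
  induction gs with
  | nil => rfl
  | cons g gs ih => cases g <;> simp only [binCount, smulCount, List.length_cons] <;> omega

variable {n : ℕ}

def Full (v : Fin n → ℂ) : Prop := ∀ i, v i ≠ 0

/-- The invariant after `b` binary gates. -/
def Inv (b : ℕ) (vals : List (Fin n → ℂ)) : Prop :=
  (∃ c : Fin n → Fin n, n ≤ (univ.image c).card + b ∧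
    ∀ v ∈ vals, ∀ i j, v i ≠ 0 → v j ≠ 0 → c i = c j) ∧
  (∀ S : Finset (Fin n → ℂ), S.Nonempty → (∀ v ∈ S, v ∈ vals) → (∀ v ∈ S, Full v) →
    (∀ v ∈ S, ∀ w ∈ S, v ≠ w → ∀ l : ℂ, w ≠ l • v) → S.card + n ≤ b + 2)

lemma getD_mem_or {V : Type} [Zero V] (vals : List V) (i : ℕ) :
    vals.getD i 0 = 0 ∨ vals.getD i 0 ∈ vals := by
  by_cases h : i < vals.length
  · right
    rw [List.getD_eq_getElem _ _ h]
    exact List.getElem_mem h
  · left
    rw [List.getD_eq_default]
    omega

lemma inv_bin (b : ℕ) (vals : List (Fin n → ℂ)) (h : Inv b vals) (u w g : Fin n → ℂ)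
    (hu : u = 0 ∨ u ∈ vals) (hw : w = 0 ∨ w ∈ vals)
    (hg : ∀ i, g i ≠ 0 → u i ≠ 0 ∨ w i ≠ 0) : Inv (b + 1) (vals ++ [g]) := by
  classical
  obtain ⟨⟨c, hc, hcv⟩, hS⟩ := h
  have huc : ∀ i j, u i ≠ 0 → u j ≠ 0 → c i = c j := by
    intro i j hi hj
    rcases hu with rfl | hu
    · exact absurd rfl hi
    · exact hcv u hu i j hi hj
  have hwc : ∀ i j, w i ≠ 0 → w j ≠ 0 → c i = c j := by
    intro i j hi hj
    rcases hw with rfl | hw
    · exact absurd rfl hi
    · exact hcv w hw i j hi hj
  refine ⟨?_, ?_⟩
  · by_cases hU : ∃ i, u i ≠ 0
    swap
    · refine ⟨c, by omega, ?_⟩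
      intro v hv i j hi hj
      rcases List.mem_append.1 hv with hv | hv
      · exact hcv v hv i j hi hj
      · rw [List.mem_singleton] at hv
        subst hv
        push Not at hU
        have h1 := (hg i hi).resolve_left (fun hh => hh (hU i))
        have h2 := (hg j hj).resolve_left (fun hh => hh (hU j))
        exact hwc i j h1 h2
    by_cases hW : ∃ i, w i ≠ 0
    swap
    · refine ⟨c, by omega, ?_⟩
      intro v hv i j hi hj
      rcases List.mem_append.1 hv with hv | hv
      · exact hcv v hv i j hi hj
      · rw [List.mem_singleton] at hv
        subst hv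
        push Not at hW
        have h1 := (hg i hi).resolve_right (fun hh => hh (hW i))
        have h2 := (hg j hj).resolve_right (fun hh => hh (hW j))
        exact huc i j h1 h2
    obtain ⟨i0, hi0⟩ := hU
    obtain ⟨j0, hj0⟩ := hW
    let c' : Fin n → Fin n := fun i => if c i = c i0 then c j0 else c i
    refine ⟨c', ?_, ?_⟩
    · have hsub : univ.image c ⊆ insert (c i0) (univ.image c') := by
        intro a ha
        obtain ⟨i, -, rfl⟩ := Finset.mem_image.1 ha
        by_cases hi : c i = c i0
        · rw [hi]; exact Finset.mem_insert_self _ _
        · apply Finset.mem_insert_of_mem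
          refine Finset.mem_image.2 ⟨i, Finset.mem_univ _, ?_⟩
          simp only [c', if_neg hi]
      have h1 := Finset.card_le_card hsub
      have h2 := Finset.card_insert_le (c i0) (univ.image c')
      omega
    · have hcc : ∀ i j, c i = c j → c' i = c' j := by
        intro i j hij
        simp only [c', hij]
      intro v hv i j hi hj
      rcases List.mem_append.1 hv with hv | hv
      · exact hcc i j (hcv v hv i j hi hj)
      · rw [List.mem_singleton] at hv
        subst hv
        have key : ∀ i, v i ≠ 0 → c' i = c j0 := by
          intro i hi
          rcases hg i hi with h1 | h1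
          · simp only [c', if_pos (huc i i0 h1 hi0)]
          · have := hwc i j0 h1 hj0
            simp only [c', this]
            split_ifs <;> rfl
        rw [key i hi, key j hj]
  · intro S hne hSv hSf hSp
    by_cases hgS : g ∈ S
    · by_cases hne' : (S.erase g).Nonempty
      · have := hS (S.erase g) hne' (by
          intro v hv
          rw [Finset.mem_erase] at hv
          rcases List.mem_append.1 (hSv v hv.2) with h | h
          · exact h
          · rw [List.mem_singleton] at h
            exact absurd h hv.1)
          (fun v hv => hSf v (Finset.mem_erase.1 hv).2)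
          (fun v hv w hw => hSp v (Finset.mem_erase.1 hv).2 w (Finset.mem_erase.1 hw).2)
        have hcard := Finset.card_erase_add_one hgS
        omega
      · have hS1 : S.card = 1 := by
          rw [← Finset.card_erase_add_one hgS, Finset.not_nonempty_iff_eq_empty.1 hne']
          rfl
        -- the component function takes at most two values
        have hfull := hSf g hgS
        have h2 : (univ.image c).card ≤ 2 := by
          by_cases hU : ∃ i, u i ≠ 0
          swap
          · push Not at hU
            have hle : (univ.image c).card ≤ 1 := by
              rw [Finset.card_le_one]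
              intro a ha a' ha'
              obtain ⟨i, -, rfl⟩ := Finset.mem_image.1 ha
              obtain ⟨j, -, rfl⟩ := Finset.mem_image.1 ha'
              have h1 := (hg i (hfull i)).resolve_left (fun hh => hh (hU i))
              have h2 := (hg j (hfull j)).resolve_left (fun hh => hh (hU j))
              exact hwc i j h1 h2
            omega
          by_cases hW : ∃ i, w i ≠ 0
          swap
          · push Not at hW
            have hle : (univ.image c).card ≤ 1 := by
              rw [Finset.card_le_one]
              intro a ha a' ha'
              obtain ⟨i, -, rfl⟩ := Finset.mem_image.1 ha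
              obtain ⟨j, -, rfl⟩ := Finset.mem_image.1 ha'
              have h1 := (hg i (hfull i)).resolve_right (fun hh => hh (hW i))
              have h2 := (hg j (hfull j)).resolve_right (fun hh => hh (hW j))
              exact huc i j h1 h2
            omega
          obtain ⟨i0, hi0⟩ := hU
          obtain ⟨j0, hj0⟩ := hW
          have hsub : univ.image c ⊆ {c i0, c j0} := by
            intro a ha
            obtain ⟨i, -, rfl⟩ := Finset.mem_image.1 ha
            rcases hg i (hfull i) with h1 | h1
            · rw [huc i i0 h1 hi0]; simp
            · rw [hwc i j0 h1 hj0]; simp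
          exact (Finset.card_le_card hsub).trans Finset.card_le_two
        omega
    · have := hS S hne (by
          intro v hv
          rcases List.mem_append.1 (hSv v hv) with h | h
          · exact h
          · rw [List.mem_singleton] at h
            subst h
            exact absurd hv hgS) hSf hSp
      omega

lemma inv_smul (b : ℕ) (vals : List (Fin n → ℂ)) (h : Inv b vals) (u g : Fin n → ℂ) (l : ℂ)
    (hu : u = 0 ∨ u ∈ vals) (hg : g = l • u) (hn : 0 < n) : Inv b (vals ++ [g]) := by
  classical
  obtain ⟨⟨c, hc, hcv⟩, hS⟩ := h
  refine ⟨⟨c, hc, ?_⟩, ?_⟩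
  · intro v hv i j hi hj
    rcases List.mem_append.1 hv with hv | hv
    · exact hcv v hv i j hi hj
    · rw [List.mem_singleton] at hv
      subst hv
      subst hg
      have hi' : u i ≠ 0 := by
        intro h0; apply hi; simp [h0]
      have hj' : u j ≠ 0 := by
        intro h0; apply hj; simp [h0]
      rcases hu with rfl | hu
      · exact absurd rfl hi'
      · exact hcv u hu i j hi' hj'
  · intro S hne hSv hSf hSp
    by_cases hgS : g ∈ S
    · have hgf := hSf g hgS
      have hl : l ≠ 0 := by
        intro h0
        apply hgf ⟨0, hn⟩
        rw [hg, h0]; simp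
      have huf : Full u := by
        intro i h0
        apply hgf i
        rw [hg]; simp [h0]
      have hug : u = l⁻¹ • g := by
        rw [hg, smul_smul, inv_mul_cancel₀ hl, one_smul]
      have huv : u ∈ vals := by
        rcases hu with h0 | hu
        · exfalso
          apply huf ⟨0, hn⟩
          rw [h0]; rfl
        · exact hu
      by_cases hueq : u = g
      · apply hS S hne _ hSf hSp
        intro v hv
        rcases List.mem_append.1 (hSv v hv) with h | h
        · exact h
        · rw [List.mem_singleton] at h
          rw [h, ← hueq]; exact huv
      have huS : u ∉ S := by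
        intro huS
        exact hSp u huS g hgS hueq l hg
      have hcard : (insert u (S.erase g)).card = S.card := by
        rw [Finset.card_insert_of_notMem (fun hh => huS (Finset.mem_erase.1 hh).2),
          Finset.card_erase_add_one hgS]
      rw [← hcard]
      apply hS
      · exact Finset.insert_nonempty _ _
      · intro v hv
        rcases Finset.mem_insert.1 hv with rfl | hv
        · exact huv
        · rw [Finset.mem_erase] at hv
          rcases List.mem_append.1 (hSv v hv.2) with h | h
          · exact h
          · rw [List.mem_singleton] at h
            exact absurd h hv.1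
      · intro v hv
        rcases Finset.mem_insert.1 hv with rfl | hv
        · exact huf
        · exact hSf v (Finset.mem_erase.1 hv).2
      · intro v hv w hw hvw k hk
        rcases Finset.mem_insert.1 hv with hvu | hv'
        · rcases Finset.mem_insert.1 hw with hwu | hw'
          · exact hvw (hvu.trans hwu.symm)
          · rw [Finset.mem_erase] at hw'
            refine hSp g hgS w hw'.2 (Ne.symm hw'.1) (k * l⁻¹) ?_
            rw [hk, hvu, hug, smul_smul]
        · rw [Finset.mem_erase] at hv'
          rcases Finset.mem_insert.1 hw with hwu | hw'
          · refine hSp v hv'.2 g hgS hv'.1 (l * k) ?_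
            rw [hg, ← hwu, hk, smul_smul]
          · rw [Finset.mem_erase] at hw'
            exact hSp v hv'.2 w hw'.2 hvw k hk
    · apply hS S hne _ hSf hSp
      intro v hv
      rcases List.mem_append.1 (hSv v hv) with h | h
      · exact h
      · rw [List.mem_singleton] at h
        subst h
        exact absurd hv hgS

lemma inv_run (hn : 0 < n) (gs : List Gate) : ∀ (b : ℕ) (vals : List (Fin n → ℂ)), Inv b vals →
    Inv (b + binCount gs) (run gs vals) := by
  induction gs with
  | nil => intro b vals h; exact h
  | cons g gs ih =>
    intro b vals h
    cases g with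
    | add i j =>
      have := ih (b + 1) (vals ++ [Gate.value vals (.add i j)])
        (inv_bin b vals h _ _ _ (getD_mem_or vals i) (getD_mem_or vals j) (by
          intro k hk
          by_contra hcon
          push Not at hcon
          apply hk
          simp only [Gate.value, Pi.add_apply, hcon.1, hcon.2, add_zero]))
      simp only [run, binCount]
      rw [show b + (binCount gs + 1) = b + 1 + binCount gs by ring]
      exact this
    | sub i j =>
      have := ih (b + 1) (vals ++ [Gate.value vals (.sub i j)])
        (inv_bin b vals h _ _ _ (getD_mem_or vals i) (getD_mem_or vals j) (by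
          intro k hk
          by_contra hcon
          push Not at hcon
          apply hk
          simp only [Gate.value, Pi.sub_apply, hcon.1, hcon.2, sub_zero]))
      simp only [run, binCount]
      rw [show b + (binCount gs + 1) = b + 1 + binCount gs by ring]
      exact this
    | smul c i =>
      exact ih b (vals ++ [Gate.value vals (.smul c i)])
        (inv_smul b vals h _ _ c (getD_mem_or vals i) rfl hn)

lemma real_run (gs : List Gate) : ∀ (vals : List (Fin n → ℂ)), smulCount gs = 0 →
    (∀ v ∈ vals, ∀ i, (v i).im = 0) → ∀ v ∈ run gs vals, ∀ i, (v i).im = 0 := by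
  induction gs with
  | nil => intro vals _ h; exact h
  | cons g gs ih =>
    intro vals h0 h
    have hget : ∀ k : ℕ, ∀ i, ((vals.getD k 0) i).im = 0 := by
      intro k i
      rcases getD_mem_or vals k with h1 | h1
      · rw [h1]; simp
      · exact h _ h1 i
    cases g with
    | add i j =>
      apply ih _ h0
      intro v hv
      rcases List.mem_append.1 hv with hv | hv
      · exact h v hv
      · rw [List.mem_singleton] at hv
        subst hv
        intro k
        simp only [Gate.value, Pi.add_apply, Complex.add_im, hget, add_zero]
    | sub i j =>
      apply ih _ h0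
      intro v hv
      rcases List.mem_append.1 hv with hv | hv
      · exact h v hv
      · rw [List.mem_singleton] at hv
        subst hv
        intro k
        simp only [Gate.value, Pi.sub_apply, Complex.sub_im, hget, sub_zero]
    | smul c i => simp only [smulCount] at h0; omega

/-- Any linear circuit computing the discrete Fourier transform of order `n` has at least
`2n-2` addition/subtraction gates, hence at least `2n-2` gates, and at least `2n-1` gates
when `n ≥ 3`. -/
theorem result (n : ℕ) (gs : List Gate) (h : ComputesDFT n gs) :
    (2 ≤ n → 2 * n - 2 ≤ gs.length) ∧ (3 ≤ n → 2 * n - 1 ≤ gs.length) := by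
  classical
  by_cases hn2 : 2 ≤ n
  swap
  · exact ⟨fun h => absurd h hn2, fun h => absurd (by omega) hn2⟩
  obtain ⟨out, hout⟩ := h
  set z : ℂ := Complex.exp (2 * Real.pi * Complex.I / n) with hz
  have hprim : IsPrimitiveRoot z n := Complex.isPrimitiveRoot_exp n (by omega)
  -- formal run
  let vals0 : List (Fin n → ℂ) := List.ofFn (fun i => (Pi.single i 1 : Fin n → ℂ)) ++ [0]
  let y : Fin n → (Fin n → ℂ) := fun j k => z ^ ((j : ℕ) * (k : ℕ))
  have hy : ∀ j, (run gs vals0).getD (out j) 0 = y j := by
    intro j
    -- functional
    have hf : ∀ x : Fin n → ℂ, ∑ k, (run gs vals0).getD (out j) 0 k * x k = ∑ k, y j k * x k := by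
      intro x
      let φ : (Fin n → ℂ) →ₗ[ℂ] ℂ :=
        { toFun := fun v => ∑ k, v k * x k
          map_add' := by
            intro v w
            simp only [Pi.add_apply, add_mul, Finset.sum_add_distrib]
          map_smul' := by
            intro c v
            simp only [Pi.smul_apply, smul_eq_mul, RingHom.id_apply, Finset.mul_sum, mul_assoc] }
      have h1 : vals0.map φ = List.ofFn x ++ [0] := by
        simp only [vals0, List.map_append, List.map_ofFn, List.map_cons, List.map_nil, map_zero]
        congr 1
        congr 1
        funext i
        simp only [Function.comp, φ, LinearMap.coe_mk, AddHom.coe_mk]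
        rw [Finset.sum_eq_single i]
        · simp
        · intro k _ hk
          rw [Pi.single_eq_of_ne hk, zero_mul]
        · intro hi; exact absurd (Finset.mem_univ i) hi
      have h2 := hout x j
      rw [← h1, run_map, getD_map] at h2
      exact h2
    funext i
    have := hf (Pi.single i 1)
    have hs : ∀ v : Fin n → ℂ, ∑ k, v k * (Pi.single i 1 : Fin n → ℂ) k = v i := by
      intro v
      rw [Finset.sum_eq_single i]
      · simp
      · intro k _ hk
        rw [Pi.single_eq_of_ne hk, mul_zero]
      · intro hi; exact absurd (Finset.mem_univ i) hi
    rw [hs, hs] at this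
    exact this
  have hz0 : z ≠ 0 := Complex.exp_ne_zero _
  have hyfull : ∀ j, Full (y j) := fun j i => pow_ne_zero _ hz0
  have hymem : ∀ j, y j ∈ run gs vals0 := by
    intro j
    rcases getD_mem_or (run gs vals0) (out j) with h1 | h1
    · exfalso
      rw [hy j] at h1
      have := hyfull j ⟨0, by omega⟩
      rw [h1] at this
      exact this rfl
    · rw [hy j] at h1; exact h1
  have hy0 : ∀ j, y j ⟨0, by omega⟩ = 1 := by intro j; simp [y]
  have hyprop : ∀ i j : Fin n, ∀ l : ℂ, y j = l • y i → i = j := by
    intro i j l hl
    have h0 := congrFun hl ⟨0, by omega⟩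
    rw [Pi.smul_apply, hy0, hy0, smul_eq_mul, mul_one] at h0
    have h1 := congrFun hl ⟨1, by omega⟩
    rw [← h0, one_smul] at h1
    simp only [y, mul_one] at h1
    exact Fin.ext (hprim.pow_inj i.2 j.2 h1.symm)
  have hyinj : Function.Injective y := by
    intro i j hij
    exact hyprop i j 1 (by rw [one_smul, hij])
  -- initial invariant
  have hinit : Inv 0 vals0 := by
    refine ⟨⟨id, by simp, ?_⟩, ?_⟩
    · intro v hv i j hi hj
      rcases List.mem_append.1 hv with hv | hv
      · rw [List.mem_ofFn] at hv
        obtain ⟨k, rfl⟩ := hv
        have hik : i = k := by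
          by_contra hne; exact hi (Pi.single_eq_of_ne hne _)
        have hjk : j = k := by
          by_contra hne; exact hj (Pi.single_eq_of_ne hne _)
        rw [hik, hjk]
      · rw [List.mem_singleton] at hv
        subst hv
        exact absurd rfl hi
    · intro S hne hSv hSf _
      exfalso
      obtain ⟨v, hv⟩ := hne
      have hvf := hSf v hv
      rcases List.mem_append.1 (hSv v hv) with hv | hv
      · rw [List.mem_ofFn] at hv
        obtain ⟨k, rfl⟩ := hv
        by_cases hk : k = ⟨0, by omega⟩
        · apply hvf ⟨1, by omega⟩
          apply Pi.single_eq_of_ne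
          rw [hk]
          intro h
          have := congrArg Fin.val h
          simp at this
        · apply hvf ⟨0, by omega⟩
          apply Pi.single_eq_of_ne
          exact Ne.symm hk
      · rw [List.mem_singleton] at hv
        subst hv
        exact hvf ⟨0, by omega⟩ rfl
  have hfin := (inv_run (by omega) gs 0 vals0 hinit).2 (univ.image y)
    ⟨y ⟨0, by omega⟩, Finset.mem_image_of_mem _ (Finset.mem_univ _)⟩
    (by
      intro v hv
      obtain ⟨j, -, rfl⟩ := Finset.mem_image.1 hv
      exact hymem j)
    (by
      intro v hv
      obtain ⟨j, -, rfl⟩ := Finset.mem_image.1 hv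
      exact hyfull j)
    (by
      intro v hv w hw hvw l hl
      obtain ⟨i, -, rfl⟩ := Finset.mem_image.1 hv
      obtain ⟨j, -, rfl⟩ := Finset.mem_image.1 hw
      exact hvw (congrArg y (hyprop i j l hl)))
  rw [Finset.card_image_of_injective _ hyinj, Finset.card_univ, Fintype.card_fin] at hfin
  have hcount := count_add gs
  refine ⟨fun _ => by omega, fun hn3 => ?_⟩
  have hs : smulCount gs ≠ 0 := by
    intro h0
    have hreal := real_run gs vals0 h0 (by
      intro v hv i
      rcases List.mem_append.1 hv with hv | hv
      · rw [List.mem_ofFn] at hv
        obtain ⟨k, rfl⟩ := hv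
        by_cases hik : i = k
        · subst hik; simp
        · rw [Pi.single_eq_of_ne hik]; simp
      · rw [List.mem_singleton] at hv
        subst hv; simp) (y ⟨1, by omega⟩) (hymem _) ⟨1, by omega⟩
    simp only [y, mul_one, pow_one] at hreal
    -- z real with |z| = 1 gives z^2 = 1
    have hzr : z = (z.re : ℂ) := by
      apply Complex.ext
      · simp
      · simpa using hreal
    have hnorm : ‖z‖ = 1 := hprim.norm'_eq_one (by omega)
    have hz2 : z ^ 2 = 1 := by
      have h1 : |z.re| = 1 := by
        rw [hzr, Complex.norm_real, Real.norm_eq_abs] at hnorm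
        exact hnorm
      have h2 : z.re ^ 2 = 1 := by
        rw [← sq_abs, h1]; norm_num
      rw [hzr]
      exact_mod_cast h2
    have := hprim.dvd_of_pow_eq_one 2 hz2
    have := Nat.le_of_dvd (by norm_num) this
    omega
  omega

end Vale.Agent.Results.P344.LowerBound
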